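import Mathlib
import Vale.Agent.P344.Defs
import Vale.Agent.P344.Final

open Vale.Agent.P344

namespace Vale.Agent.Results.P344.Lower

/-- For every `n ≥ 2` the discrete Fourier transform of order `n` has a linear circuit with `L n`
gates, and `L(n) ≥ (9/4) n - 5/2`. -/
theorem result (n : ℕ) (hn : 2 ≤ n) :
    GatesSuffice n (L n) ∧ (9 / 4 : ℝ) * n - 5 / 2 ≤ L n := by
  obtain ⟨h1, h2⟩ := final n hn
  refine ⟨h1, ?_⟩
  have h3 : ((9 * n : ℕ) : ℝ) ≤ ((4 * L n + 10 : ℕ) : ℝ) := by exact_mod_cast h2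
  push_cast at h3
  linarith

end Vale.Agent.Results.P344.Lower
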